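import Vale.Agent.P193.FlabbyLeavitt.Patterns
import Vale.Agent.P193.Pure.Defs

/-! P193, module B: `B` is a nontrivial covered pure system with a flasque endomorphism. -/

namespace Vale.Agent.P193.FlabbyLeavitt

instance : Nontrivial B := by
  refine ⟨1, 0, fun h => ?_⟩
  have h' := DFunLike.congr_fun (congrArg ev h) (Finsupp.single (fun _ => T.atom 0) (1 : K))
  simp at h'

/-! ### Ground terms -/

def emb : T → PT
  | .atom n => .atom n
  | .node l r => .node (emb l) (emb r)

theorem kindsT_emb (t : T) : kindsT (emb t) = [] := by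
  induction t with
  | atom n => rfl
  | node l r ihl ihr => simp [emb, kindsT, ihl, ihr]

theorem dep_emb (n : ℕ) (t : T) : Dep n (emb t) := by
  induction t generalizing n with
  | atom c => cases n <;> simp [Dep, emb]
  | node l r ihl ihr =>
    cases n with
    | zero => simp [Dep]
    | succ n => exact ⟨ihl n, ihr n⟩

noncomputable def X (t : T) : B := E (emb t)

theorem X_atom (n : ℕ) : X (.atom n) = s1 ^ n * s0 := rfl

theorem X_node (l r : T) : X (.node l r) = p * X l * X r := by
  simp [X, emb, E, nv, kindsT_emb]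

theorem psi_X (t : T) (x : B) : psi x * X t = X t * x := by
  simpa [X, nv, kindsT_emb] using psi_E (emb t) x

noncomputable def Y : T → B
  | .atom n => t0 * t1 ^ n
  | .node l r => Y r * Y l * q

theorem t1_pow_s1_pow (n : ℕ) : t1 ^ n * s1 ^ n = 1 := by
  induction n with
  | zero => simp
  | succ n ih => rw [pow_succ, mul_assoc, t1_s1_pow, ih]

theorem t1_pow_p (n : ℕ) : t1 ^ n * p = p := by
  induction n with
  | zero => simp
  | succ n ih => rw [pow_succ, mul_assoc, t1_p, ih]

theorem Y_X (t u : T) : Y t * X u = if t = u then 1 else 0 := by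
  induction t generalizing u with
  | atom n =>
    cases u with
    | atom m =>
      rcases lt_trichotomy n m with h | rfl | h
      · obtain ⟨d, rfl⟩ : ∃ d, m = n + (d + 1) := ⟨m - n - 1, by omega⟩
        rw [if_neg (by simp)]
        simp only [Y, X_atom]
        rw [pow_add]
        simp only [mul_assoc]
        rw [← mul_assoc (t1 ^ n), t1_pow_s1_pow, one_mul, ← mul_assoc, t0_s1_pow, zero_mul]
      · rw [if_pos rfl]
        simp only [Y, X_atom, mul_assoc]
        rw [← mul_assoc (t1 ^ n), t1_pow_s1_pow, one_mul, t0_s0]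
      · obtain ⟨d, rfl⟩ : ∃ d, n = (d + 1) + m := ⟨n - m - 1, by omega⟩
        rw [if_neg (by simp)]
        simp only [Y, X_atom, pow_add, pow_one, mul_assoc]
        rw [← mul_assoc (t1 ^ m), t1_pow_s1_pow, one_mul, t1_s0, mul_zero, mul_zero]
    | node l r =>
      rw [if_neg (by simp)]
      simp only [Y, X_node, mul_assoc]
      rw [← mul_assoc (t1 ^ n), t1_pow_p, ← mul_assoc t0, t0_p, zero_mul]
  | node l r ihl ihr =>
    cases u with
    | atom m =>
      rw [if_neg (by simp)]
      simp only [Y, X_atom, mul_assoc]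
      rw [← mul_assoc q, q_s1_pow, q_s0, mul_zero, mul_zero]
    | node l' r' =>
      simp only [Y, X_node, mul_assoc]
      rw [← mul_assoc q, q_p, one_mul, ← mul_assoc (Y l), ihl]
      by_cases hl : l = l'
      · rw [if_pos hl, one_mul, ihr]; simp [hl]
      · rw [if_neg hl, if_neg (by simp [hl]), zero_mul, mul_zero]

/-- The isometry of a word of ground terms. -/
noncomputable def xHom : FreeMonoid T →* B := FreeMonoid.lift X

noncomputable def xL (w : List T) : B := (w.map X).prod

noncomputable def yL : List T → B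
  | [] => 1
  | t :: w => yL w * Y t

theorem xHom_ofList (w : List T) : xHom (FreeMonoid.ofList w) = xL w := by
  simp [xHom, xL, FreeMonoid.lift_ofList]

@[simp] theorem xL_nil : xL [] = 1 := rfl
@[simp] theorem xL_cons (t : T) (w : List T) : xL (t :: w) = X t * xL w := by simp [xL]
theorem xL_append (v w : List T) : xL (v ++ w) = xL v * xL w := by simp [xL]

theorem yL_xL (w : List T) : yL w * xL w = 1 := by
  induction w with
  | nil => simp [yL]
  | cons t w ih =>
    rw [yL, xL_cons, mul_assoc, ← mul_assoc (Y t), Y_X, if_pos rfl, one_mul, ih]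

theorem yL_xL_ne : ∀ (u v : List T) (i : ℕ) (h : i < u.length) (h' : i < v.length),
    u[i] ≠ v[i] → yL u * xL v = 0
  | [], _, i, h, _, _ => absurd h (by simp)
  | _ :: _, [], i, _, h', _ => absurd h' (by simp)
  | t :: u, t' :: v, i, h, h', hne => by
    rw [yL, xL_cons, mul_assoc, ← mul_assoc (Y t), Y_X]
    by_cases ht : t = t'
    · rw [if_pos ht, one_mul]
      cases i with
      | zero => exact absurd ht (by simpa using hne)
      | succ i => exact yL_xL_ne u v i (by simpa using h) (by simpa using h') (by simpa using hne)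
    · rw [if_neg ht, zero_mul, mul_zero]

/-- all atom indices are `< N` -/
def Bdd (N : ℕ) : T → Prop
  | .atom n => n < N
  | .node l r => Bdd N l ∧ Bdd N r

def bound : T → ℕ
  | .atom n => n + 1
  | .node l r => max (bound l) (bound r)

theorem bdd_bound (t : T) {N : ℕ} (h : bound t ≤ N) : Bdd N t := by
  induction t with
  | atom n => simp only [bound] at h; simp only [Bdd]; omega
  | node l r ihl ihr =>
    simp only [bound] at h
    exact ⟨ihl (by omega), ihr (by omega)⟩

theorem separate_aux (S : Finset (FreeMonoid T)) (n : ℕ) :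
    ∃ f : Fin n → FreeMonoid T, ∀ w ∈ S, ∀ w' ∈ S, ∀ i j, (w, i) ≠ (w', j) →
      yL (w * f i).toList * xL (w' * f j).toList = 0 := by
  obtain ⟨m, hm⟩ : ∃ m, ∀ w ∈ S, w.toList.length < m :=
    ⟨S.sup (fun w => w.toList.length) + 1, fun w hw =>
      Nat.lt_succ_of_le (Finset.le_sup (f := fun w => w.toList.length) hw)⟩
  obtain ⟨N, hN⟩ : ∃ N, ∀ w ∈ S, ∀ t ∈ w.toList, t ≠ T.atom N ∧ ∀ k, N ≤ k → t ≠ T.atom k :=
    ⟨S.sup (fun w => (w.toList.map bound).sum), fun w hw t ht => by
      have h1 : bound t ≤ S.sup (fun w => (w.toList.map bound).sum) :=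
        le_trans (List.single_le_sum (by simp) _ (List.mem_map_of_mem ht))
          (Finset.le_sup (f := fun w => (w.toList.map bound).sum) hw)
      refine ⟨?_, fun k hk => ?_⟩ <;> rintro rfl <;> simp only [bound] at h1 <;> omega⟩
  refine ⟨fun i => FreeMonoid.ofList (List.replicate m (T.atom (N + i))), ?_⟩
  intro w hw w' hw' i j hne
  simp only [FreeMonoid.toList_mul, FreeMonoid.toList_ofList]
  have hl := hm w hw
  have hl' := hm w' hw'
  rcases lt_trichotomy w.toList.length w'.toList.length with h | h | h
  · refine yL_xL_ne _ _ w.toList.length (by simp; omega) (by simp; omega) ?_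
    rw [List.getElem_append_right (le_refl _), List.getElem_append_left h]
    simp only [List.getElem_replicate]
    exact ((hN w' hw' _ (List.getElem_mem h)).2 _ (Nat.le_add_right _ _)).symm
  · by_cases he : w.toList = w'.toList
    · have hij : i ≠ j := by
        rintro rfl; exact hne (by rw [FreeMonoid.toList.injective he])
      refine yL_xL_ne _ _ w.toList.length (by simp; omega) (by simp; omega) ?_
      rw [List.getElem_append_right (le_refl _), List.getElem_append_right (le_of_eq h.symm)]
      simp only [List.getElem_replicate]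
      simpa [Fin.val_inj] using hij
    · obtain ⟨k, hk, hk', hne'⟩ : ∃ k, ∃ (hk : k < w.toList.length) (hk' : k < w'.toList.length),
          w.toList[k] ≠ w'.toList[k] := by
        by_contra hc
        push Not at hc
        exact he (List.ext_getElem h fun k h1 h2 => hc k h1 h2)
      refine yL_xL_ne _ _ k (by simp; omega) (by simp; omega) ?_
      rw [List.getElem_append_left hk, List.getElem_append_left hk']
      exact hne'
  · refine yL_xL_ne _ _ w'.toList.length (by simp; omega) (by simp; omega) ?_
    rw [List.getElem_append_left h, List.getElem_append_right (le_refl _)]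
    simp only [List.getElem_replicate]
    exact (hN w hw _ (List.getElem_mem h)).2 _ (Nat.le_add_right _ _)

/-! ### Generic substitution -/

def mark (N : ℕ) : T := .node (.atom (3 * N)) (.atom (3 * N))

def val (N : ℕ) : Bool → T
  | true => .atom N
  | false => mark N

def inst (N : ℕ) : PT → T
  | .atom n => .atom n
  | .var => mark N
  | .ge c => .atom (N + c)
  | .node l r => .node (inst N l) (inst N r)

def dec (N : ℕ) : T → PT
  | .atom n => if n < N then .atom n else .ge (n - N)
  | .node l r => if T.node l r = mark N then .var else .node (dec N l) (dec N r)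

def PBdd (N : ℕ) : PT → Prop
  | .atom n => n < N
  | .var => True
  | .ge c => c < N
  | .node l r => PBdd N l ∧ PBdd N r

def pbound : PT → ℕ
  | .atom n => n + 1
  | .var => 0
  | .ge c => c + 1
  | .node l r => max (pbound l) (pbound r)

theorem pbdd_pbound (t : PT) {N : ℕ} (h : pbound t ≤ N) : PBdd N t := by
  induction t with
  | atom n => simp only [pbound] at h; simp only [PBdd]; omega
  | var => trivial
  | ge n => simp only [pbound] at h; simp only [PBdd]; omega
  | node l r ihl ihr =>
    simp only [pbound] at h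
    exact ⟨ihl (by omega), ihr (by omega)⟩

theorem inst_ne_top {N : ℕ} (t : PT) (h : PBdd N t) : inst N t ≠ .atom (3 * N) := by
  cases t with
  | atom n => simp only [PBdd] at h; simp [inst]; omega
  | var => simp [inst, mark]
  | ge n => simp only [PBdd] at h; simp [inst]; omega
  | node l r => simp [inst]

theorem dec_inst {N : ℕ} (t : PT) (h : PBdd N t) : dec N (inst N t) = t := by
  induction t with
  | atom n => simp only [PBdd] at h; simp [inst, dec, h]
  | var => simp only [inst, mark, dec, if_true]
  | ge n => simp [inst, dec]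
  | node l r ihl ihr =>
    obtain ⟨hl, hr⟩ := h
    have : T.node (inst N l) (inst N r) ≠ mark N := by
      simp [mark, inst_ne_top l hl]
    rw [inst, dec, if_neg this, ihl hl, ihr hr]

/-- substitution word -/
def theta (N : ℕ) (k : List Bool) : List T := k.map (val N)

theorem psiN_xL (z : B) : ∀ G : List T, psiN G.length z * xL G = xL G * z
  | [] => by simp
  | t :: G => by
    rw [List.length_cons, psiN_succ, xL_cons, ← mul_assoc, psi_X, mul_assoc, psiN_xL z G,
      mul_assoc]

theorem E_theta (N : ℕ) (t : PT) : E t * xL (theta N (kindsT t)) = X (inst N t) := by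
  induction t with
  | atom n => simp [E, theta, kindsT, inst, X_atom]
  | var => simp [E, theta, kindsT, inst, val]
  | ge c =>
    simp only [E, theta, kindsT, inst, val, List.map_cons, List.map_nil, xL_cons, xL_nil, mul_one,
      X_atom, sub_mul, mul_sub, mul_assoc]
    rw [← mul_assoc q, q_s1_pow, q_s0]
    simp [pow_add, mul_assoc, Nat.add_comm N c]
  | node l r ihl ihr =>
    simp only [E, theta, kindsT, List.map_append, xL_append, inst, X_node]
    have h : psiN (nv l) (E r) * xL (List.map (val N) (kindsT l)) =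
        xL (List.map (val N) (kindsT l)) * E r := by
      have := psiN_xL (E r) (List.map (val N) (kindsT l))
      simpa [nv] using this
    calc p * E l * psiN (nv l) (E r) * (xL (List.map (val N) (kindsT l)) * xL (List.map (val N) (kindsT r)))
        = p * (E l * xL (theta N (kindsT l))) * (E r * xL (theta N (kindsT r))) := by
          simp only [theta, mul_assoc]; rw [← mul_assoc (psiN _ _), h]; simp only [mul_assoc]
      _ = _ := by rw [ihl, ihr]

theorem Phi_theta (N : ℕ) : ∀ P : List PT,
    Phi P * xL (theta N (kinds P)) = xL (P.map (inst N))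
  | [] => by simp [Phi, theta, kinds]
  | t :: P => by
    simp only [Phi, kinds, List.flatMap_cons, theta, List.map_append, xL_append, List.map_cons,
      xL_cons]
    have h : psiN (nv t) (Phi P) * xL (List.map (val N) (kindsT t)) =
        xL (List.map (val N) (kindsT t)) * Phi P := by
      have := psiN_xL (Phi P) (List.map (val N) (kindsT t))
      simpa [nv] using this
    rw [mul_assoc, ← mul_assoc (psiN _ _), h, mul_assoc, ← mul_assoc (E t)]
    have h1 : E t * xL (List.map (val N) (kindsT t)) = X (inst N t) := E_theta N t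
    have h2 : Phi P * xL (List.map (val N) (P.flatMap kindsT)) = xL (P.map (inst N)) :=
      Phi_theta N P
    rw [h1, h2]

theorem Phi_emb (w : List T) : Phi (w.map emb) = xL w := by
  induction w with
  | nil => rfl
  | cons t w ih => simp [Phi, nv, kindsT_emb, ih, X]

theorem good_emb : ∀ (n : ℕ) (w : List T), n ≤ w.length → Good n (w.map emb)
  | 0, _, _ => by simp [Good]
  | n + 1, [], h => absurd h (by simp)
  | n + 1, t :: w, h => ⟨dep_emb _ t, good_emb n w (by simpa using h)⟩

theorem kinds_emb (w : List T) : kinds (w.map emb) = [] := by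
  simp [kinds, List.flatMap_map, kindsT_emb]

theorem exists_common_loc (s : Finset B) : ∃ L, ∀ b ∈ s, Loc L b := by
  choose L hL using exists_loc
  exact ⟨s.sup L, fun b hb => (hL b).mono (Finset.le_sup hb)⟩

theorem exists_cover (s : Finset B) : ∃ (ι : Type) (_ : Fintype ι) (P : ι → List PT) (v : ι → B),
    (∑ q, Phi (P q) * v q = 1) ∧
      ∀ q, ∀ b ∈ s, b * Phi (P q) ∈ Submodule.span K (patSet 0 (kinds (P q))) := by
  obtain ⟨L, hL⟩ := exists_common_loc s
  obtain ⟨n, c, g, hg⟩ := Submodule.mem_span_set'.1 (one_mem_cov L)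
  choose P x hP hx using fun i => (g i).2
  refine ⟨Fin n, inferInstance, P, fun i => c i • x i, ?_, ?_⟩
  · rw [← hg]
    exact Finset.sum_congr rfl fun i _ => by rw [mul_smul_comm, hx i]
  · intro i b hb
    exact hL b hb 0 (P i) (by simpa using hP i)

/-- Finitely many pattern combinations, made pairwise different by one substitution. -/
theorem exists_generic (k : List Bool) {κ : Type} [Fintype κ] (z : κ → B)
    (hz : ∀ i, z i ∈ Submodule.span K (patSet 0 k)) :
    ∃ (Qs : Finset (List PT)) (N : ℕ), (∀ Q ∈ Qs, kinds Q = k) ∧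
      (∀ i, z i ∈ Submodule.span K (Phi '' (Qs : Set (List PT)))) ∧
      Set.InjOn (List.map (inst N)) (Qs : Set (List PT)) := by
  classical
  have h : ∀ i, ∃ Qs : Finset (List PT), (∀ Q ∈ Qs, kinds Q = k) ∧
      z i ∈ Submodule.span K (Phi '' (Qs : Set (List PT))) := by
    intro i
    obtain ⟨n, c, g, hg⟩ := Submodule.mem_span_set'.1 (hz i)
    choose Q hQ hk hQz using fun j => (g j).2
    refine ⟨Finset.univ.image Q, by simp [hk], ?_⟩
    rw [← hg]
    exact Submodule.sum_mem _ fun j _ => Submodule.smul_mem _ _
      (Submodule.subset_span ⟨Q j, by simp, hQz j⟩)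
  choose Qs hk hz' using h
  let A := Finset.univ.biUnion Qs
  refine ⟨A, A.sup (fun Q => (Q.map pbound).sum), ?_, ?_, ?_⟩
  · intro Q hQ
    obtain ⟨i, -, hi⟩ := Finset.mem_biUnion.1 hQ
    exact hk i Q hi
  · intro i
    refine Submodule.span_mono (Set.image_mono ?_) (hz' i)
    intro Q hQ
    exact Finset.mem_biUnion.2 ⟨i, Finset.mem_univ _, hQ⟩
  · intro Q hQ Q' hQ' heq
    have hb : ∀ Q ∈ A, ∀ t ∈ Q, PBdd (A.sup (fun Q => (Q.map pbound).sum)) t := fun Q hQ t ht =>
      pbdd_pbound t (le_trans (List.single_le_sum (by simp) _ (List.mem_map_of_mem ht))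
        (Finset.le_sup (f := fun Q => (Q.map pbound).sum) hQ))
    have h1 : ∀ Q ∈ A, (Q.map (inst (A.sup (fun Q => (Q.map pbound).sum)))).map
        (dec (A.sup (fun Q => (Q.map pbound).sum))) = Q := by
      intro Q hQ
      rw [List.map_map]
      conv_rhs => rw [← List.map_id Q]
      exact List.map_congr_left fun t ht => dec_inst t (hb Q hQ t ht)
    rw [← h1 Q hQ, heq, h1 Q' hQ']

theorem coeff_eq_zero {κ : Type} [Fintype κ] (out : κ → FreeMonoid T)
    (hout : Function.Injective out) (c : κ → K) (h : ∑ j, c j • xL (out j).toList = 0) :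
    ∀ j, c j = 0 := by
  classical
  intro j
  obtain ⟨f, hf⟩ := separate_aux (Finset.univ.image out) 1
  have h' := congrArg (fun z => yL (out j * f 0).toList * (z * xL (f 0).toList)) h
  simp only [Finset.sum_mul, Finset.mul_sum, zero_mul, mul_zero, smul_mul_assoc,
    mul_smul_comm, ← xL_append, ← FreeMonoid.toList_mul] at h'
  rw [Finset.sum_eq_single j] at h'
  · rw [yL_xL] at h'
    simpa using h'
  · intro j' _ hj'
    rw [hf _ (Finset.mem_image_of_mem _ (Finset.mem_univ _)) _
      (Finset.mem_image_of_mem _ (Finset.mem_univ _)) 0 0 (by simp [hout.eq_iff, Ne.symm hj']),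
      smul_zero]
  · simp

/-- `B` is a covered pure system on words of ground terms. -/
noncomputable def covered : CoveredSystem B where
  W := FreeMonoid T
  x := xHom
  y := fun w => yL w.toList
  left_inv w := by
    have := xHom_ofList w.toList
    rw [FreeMonoid.ofList_toList] at this
    rw [this, yL_xL]
  separate S n := by
    obtain ⟨f, hf⟩ := separate_aux S n
    refine ⟨f, fun w hw w' hw' i j hne => ?_⟩
    have := xHom_ofList (w' * f j).toList
    rw [FreeMonoid.ofList_toList] at this
    rw [this]
    exact hf w hw w' hw' i j hne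
  detect a ha := by
    classical
    obtain ⟨ι, _, P, v, h1, hP⟩ := exists_cover {a}
    obtain ⟨q, hq⟩ : ∃ q, a * Phi (P q) ≠ 0 := by
      by_contra hc
      push Not at hc
      apply ha
      rw [← mul_one a, ← h1, Finset.mul_sum]
      exact Finset.sum_eq_zero fun q _ => by rw [← mul_assoc, hc q, zero_mul]
    obtain ⟨Qs, N, hk, hz, hinj⟩ := exists_generic (kinds (P q)) (fun _ : Unit => a * Phi (P q))
      (fun _ => hP q a (Finset.mem_singleton_self a))
    have hspan := hz ()
    rw [show (Phi '' (Qs : Set (List PT))) = Set.range (fun Q : Qs => Phi Q.1) by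
      ext b; simp] at hspan
    obtain ⟨c, hc⟩ := (Submodule.mem_span_range_iff_exists_fun K).1 hspan
    refine ⟨FreeMonoid.ofList ((P q).map (inst N)), ?_⟩
    have hw : a * xHom (FreeMonoid.ofList ((P q).map (inst N))) =
        ∑ Q : Qs, c Q • xL (FreeMonoid.ofList (Q.1.map (inst N))).toList := by
      rw [xHom_ofList, ← Phi_theta, ← mul_assoc, ← hc, Finset.sum_mul]
      refine Finset.sum_congr rfl fun Q _ => ?_
      rw [smul_mul_assoc, ← hk Q.1 Q.2, Phi_theta, FreeMonoid.toList_ofList]
    refine ⟨?_, ?_⟩
    · rw [hw]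
      refine Submodule.sum_mem _ fun Q _ => Submodule.smul_mem _ _ (Submodule.subset_span ?_)
      exact ⟨FreeMonoid.ofList (Q.1.map (inst N)), by rw [xHom_ofList, FreeMonoid.toList_ofList]⟩
    · intro h0
      rw [hw] at h0
      have hall := coeff_eq_zero _ (fun Q Q' h => Subtype.ext
        (hinj Q.2 Q'.2 (FreeMonoid.ofList.injective h))) c h0
      exact hq (by rw [← hc]; simp [hall])
  dense a w := by
    obtain ⟨L, hL⟩ := exists_loc a
    refine ⟨FreeMonoid.ofList (List.replicate L (T.atom 0)), ?_⟩
    have hw : w * FreeMonoid.ofList (List.replicate L (T.atom 0)) =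
        FreeMonoid.ofList (w.toList ++ List.replicate L (T.atom 0)) := by
      apply FreeMonoid.toList.injective; simp
    rw [hw, xHom_ofList, ← Phi_emb]
    have h := hL 0 _ (good_emb (0 + L) (w.toList ++ List.replicate L (T.atom 0)) (by simp))
    rw [kinds_emb] at h
    refine Submodule.span_mono ?_ h
    rintro b ⟨Q, -, hQ, rfl⟩
    refine ⟨FreeMonoid.ofList (Q.map (inst 0)), ?_⟩
    rw [xHom_ofList, ← Phi_theta, hQ]
    simp [theta]
  cover s := by
    classical
    obtain ⟨ι, hι, P, v, h1, hP⟩ := exists_cover s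
    refine ⟨ι, hι, fun q => Phi (P q), v, h1, fun q => ?_⟩
    obtain ⟨Qs, N, hk, hz, hinj⟩ := exists_generic (kinds (P q))
      (fun b : s => b.1 * Phi (P q)) (fun b => hP q b.1 b.2)
    refine ⟨Qs, inferInstance, fun Q => Phi Q.1, FreeMonoid.ofList (theta N (kinds (P q))),
      fun Q => FreeMonoid.ofList (Q.1.map (inst N)), ?_, ?_, ?_⟩
    · intro b hb
      refine Submodule.span_mono ?_ (hz ⟨b, hb⟩)
      rintro _ ⟨Q, hQ, rfl⟩
      exact ⟨⟨Q, hQ⟩, rfl⟩
    · intro Q
      rw [xHom_ofList, xHom_ofList, ← hk Q.1 Q.2, Phi_theta]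
    · intro Q Q' h
      exact Subtype.ext (hinj Q.2 Q'.2 (FreeMonoid.ofList.injective h))

/-- The pairs defining `B`. -/
theorem finite_rel : Set.Finite {r : Free × Free | Rel r.1 r.2} := by
  have hb : Set.Finite {r : Free × Free | Base r.1 r.2} := by
    refine Set.Finite.subset (Set.Finite.union (Set.toFinite ({(g0 .t0 * g0 .s0, 1),
      (g0 .t1 * g0 .s1, 1), (g0 .t0 * g0 .s1, 0), (g0 .t1 * g0 .s0, 0),
      (g0 .s0 * g0 .t0 + g0 .s1 * g0 .t1, 1), (g0 .q * g0 .p, 1),
      (g0 .s1 * g0 .p, g0 .p), (g0 .q * g0 .s1, g0 .q), (g0 .t0 * g0 .p, 0),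
      (g0 .q * g0 .s0, 0)} : Set (Free × Free)))
      ((Set.finite_range fun g : Gen =>
          (g0 .p * g0 .q * psiFree (FreeAlgebra.ι K g), psiFree (FreeAlgebra.ι K g) * (g0 .p * g0 .q))).union
        ((Set.finite_range fun g : Gen =>
          (g0 .s0 * FreeAlgebra.ι K g * g0 .t0 + g0 .s1 * psiFree (FreeAlgebra.ι K g) * g0 .t1,
            psiFree (FreeAlgebra.ι K g))).union
         (Set.finite_range fun g : Gen =>
          (psiFree (psiFree (FreeAlgebra.ι K g)), g0 .q * psiFree (FreeAlgebra.ι K g) * g0 .p))))) ?_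
    rintro ⟨a, b⟩ h
    cases h
    case comm g => exact Or.inr (Or.inl ⟨g, rfl⟩)
    case formula g => exact Or.inr (Or.inr (Or.inl ⟨g, rfl⟩))
    case assoc g => exact Or.inr (Or.inr (Or.inr ⟨g, rfl⟩))
    all_goals
      left
      simp only [Set.mem_insert_iff, Set.mem_singleton_iff]
      repeat' first | exact Or.inl rfl | right
      all_goals rfl
  refine Set.Finite.subset (hb.union (hb.image fun r => (psiFree r.1, psiFree r.2))) ?_
  rintro ⟨a, b⟩ h
  cases h with
  | base h => exact Or.inl h
  | image h => rename_i x y; exact Or.inr ⟨(x, y), h, rfl⟩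

end Vale.Agent.P193.FlabbyLeavitt
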