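import Mathlib

/-!
P193, module B (flabby Leavitt algebra): a finitely presented F2-algebra `B` with Leavitt
elements `s0 s1 t0 t1` and an endomorphism `psi` with `psi a = s0 a t0 + s1 (psi a) t1`.
This file: the presentation, `psi`, and the model on streams of binary-tree terms.
-/

namespace Vale.Agent.P193.FlabbyLeavitt

open FreeAlgebra

abbrev K := ZMod 2

/-- Terms: atoms indexed by naturals, closed under a pairing constructor. -/
inductive T where
  | atom (n : ℕ)
  | node (l r : T)
deriving DecidableEq

inductive Op where
  | s0 | s1 | t0 | t1 | p | q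
deriving DecidableEq

instance : Fintype Op :=
  ⟨{.s0, .s1, .t0, .t1, .p, .q}, fun o => by cases o <;> decide⟩

abbrev Gen := Op × Bool

abbrev Free := FreeAlgebra K Gen

/-- the level-0 generators in the free algebra -/
def g0 (o : Op) : Free := ι K (o, false)

/-- their `psi`-images -/
def g1 (o : Op) : Free := ι K (o, true)

noncomputable def psiFree : Free →ₐ[K] Free :=
  FreeAlgebra.lift K fun g => match g with
    | (o, false) => g1 o
    | (o, true) => g0 .q * g1 o * g0 .p

/-- Base relations. -/
inductive Base : Free → Free → Prop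
  | t0s0 : Base (g0 .t0 * g0 .s0) 1
  | t1s1 : Base (g0 .t1 * g0 .s1) 1
  | t0s1 : Base (g0 .t0 * g0 .s1) 0
  | t1s0 : Base (g0 .t1 * g0 .s0) 0
  | sum : Base (g0 .s0 * g0 .t0 + g0 .s1 * g0 .t1) 1
  | qp : Base (g0 .q * g0 .p) 1
  | s1p : Base (g0 .s1 * g0 .p) (g0 .p)
  | qs1 : Base (g0 .q * g0 .s1) (g0 .q)
  | t0p : Base (g0 .t0 * g0 .p) 0
  | qs0 : Base (g0 .q * g0 .s0) 0
  | comm (g : Gen) :
      Base (g0 .p * g0 .q * psiFree (ι K g)) (psiFree (ι K g) * (g0 .p * g0 .q))
  | formula (g : Gen) :
      Base (g0 .s0 * ι K g * g0 .t0 + g0 .s1 * psiFree (ι K g) * g0 .t1) (psiFree (ι K g))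
  | assoc (g : Gen) :
      Base (psiFree (psiFree (ι K g))) (g0 .q * psiFree (ι K g) * g0 .p)

/-- Defining relations: the base relations and their `psi`-images. -/
inductive Rel : Free → Free → Prop
  | base {x y : Free} (h : Base x y) : Rel x y
  | image {x y : Free} (h : Base x y) : Rel (psiFree x) (psiFree y)

abbrev B := RingQuot Rel

noncomputable def mk : Free →ₐ[K] B := RingQuot.mkAlgHom K Rel

theorem mk_surjective : Function.Surjective mk := RingQuot.mkAlgHom_surjective K Rel

theorem mk_base {x y : Free} (h : Base x y) : mk x = mk y :=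
  RingQuot.mkAlgHom_rel K (Rel.base h)

theorem mk_image {x y : Free} (h : Base x y) : mk (psiFree x) = mk (psiFree y) :=
  RingQuot.mkAlgHom_rel K (Rel.image h)

noncomputable def s0 : B := mk (g0 .s0)
noncomputable def s1 : B := mk (g0 .s1)
noncomputable def t0 : B := mk (g0 .t0)
noncomputable def t1 : B := mk (g0 .t1)
noncomputable def p : B := mk (g0 .p)
noncomputable def q : B := mk (g0 .q)

theorem t0_s0 : t0 * s0 = 1 := by simpa [t0, s0] using mk_base Base.t0s0
theorem t1_s1 : t1 * s1 = 1 := by simpa [t1, s1] using mk_base Base.t1s1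
theorem t0_s1 : t0 * s1 = 0 := by simpa [t0, s1] using mk_base Base.t0s1
theorem t1_s0 : t1 * s0 = 0 := by simpa [t1, s0] using mk_base Base.t1s0
theorem sum_st : s0 * t0 + s1 * t1 = 1 := by simpa [s0, s1, t0, t1] using mk_base Base.sum
theorem q_p : q * p = 1 := by simpa [q, p] using mk_base Base.qp
theorem s1_p : s1 * p = p := by simpa [s1, p] using mk_base Base.s1p
theorem q_s1 : q * s1 = q := by simpa [s1, q] using mk_base Base.qs1
theorem t0_p : t0 * p = 0 := by simpa [t0, p] using mk_base Base.t0p
theorem q_s0 : q * s0 = 0 := by simpa [q, s0] using mk_base Base.qs0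

theorem t1_p : t1 * p = p := by
  calc t1 * p = t1 * (s1 * p) := by rw [s1_p]
    _ = p := by rw [← mul_assoc, t1_s1, one_mul]

theorem comm_and_assoc (w : Free) :
    p * q * mk (psiFree w) = mk (psiFree w) * (p * q) ∧
      mk (psiFree (psiFree w)) = q * mk (psiFree w) * p := by
  induction w using FreeAlgebra.induction with
  | grade0 r =>
    constructor
    · simp only [AlgHom.commutes]; exact (Algebra.commutes r _).symm
    · simp only [AlgHom.commutes]
      rw [mul_assoc, Algebra.commutes r p, ← mul_assoc, q_p, one_mul]
  | grade1 g =>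
    constructor
    · simpa [p, q] using mk_base (Base.comm g)
    · simpa [p, q] using mk_base (Base.assoc g)
  | mul a b ha hb =>
    simp only [map_mul]
    refine ⟨?_, ?_⟩
    · rw [← mul_assoc, ha.1, mul_assoc, hb.1, ← mul_assoc]
    · rw [ha.2, hb.2]
      calc q * mk (psiFree a) * p * (q * mk (psiFree b) * p)
          = q * mk (psiFree a) * (p * q * mk (psiFree b)) * p := by simp only [mul_assoc]
        _ = q * mk (psiFree a) * (mk (psiFree b) * (p * q)) * p := by rw [hb.1]
        _ = q * (mk (psiFree a) * mk (psiFree b)) * p * (q * p) := by simp only [mul_assoc]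
        _ = _ := by rw [q_p, mul_one]
  | add a b ha hb =>
    simp only [map_add, mul_add, add_mul]
    exact ⟨by rw [ha.1, hb.1], by rw [ha.2, hb.2]⟩

/-- The endomorphism `psi` of `B`. -/
noncomputable def psi : B →ₐ[K] B :=
  RingQuot.liftAlgHom K ⟨mk.comp psiFree, by
    intro x y h
    cases h with
    | base h => exact mk_image h
    | image h =>
      rename_i a b
      change mk (psiFree (psiFree a)) = mk (psiFree (psiFree b))
      rw [(comm_and_assoc a).2, (comm_and_assoc b).2, mk_image h]⟩

@[simp] theorem psi_mk (x : Free) : psi (mk x) = mk (psiFree x) := by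
  simp [psi, mk, RingQuot.liftAlgHom_mkAlgHom_apply]

theorem pq_comm (b : B) : p * q * psi b = psi b * (p * q) := by
  obtain ⟨w, rfl⟩ := mk_surjective b
  simpa using (comm_and_assoc w).1

theorem psi_psi (b : B) : psi (psi b) = q * psi b * p := by
  obtain ⟨w, rfl⟩ := mk_surjective b
  simpa using (comm_and_assoc w).2

theorem psi_s0 (b : B) : psi b * s0 = s0 * b := by
  obtain ⟨w, rfl⟩ := mk_surjective b
  induction w using FreeAlgebra.induction with
  | grade0 r => simp only [AlgHom.commutes]; exact Algebra.commutes r _
  | grade1 g =>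
    have h := congrArg (· * s0) (mk_base (Base.formula g))
    simp only [map_add, map_mul] at h
    change (s0 * mk (ι K g) * t0 + s1 * mk (psiFree (ι K g)) * t1) * s0 = _ at h
    rw [psi_mk, ← h, add_mul, mul_assoc _ t0 s0, mul_assoc _ t1 s0, t0_s0, t1_s0]
    simp
  | mul a b ha hb => rw [map_mul, map_mul, mul_assoc, hb, ← mul_assoc, ha, mul_assoc]
  | add a b ha hb => simp only [map_add, add_mul, mul_add, ha, hb]

theorem psi_s1 (b : B) : psi b * s1 = s1 * psi b := by
  obtain ⟨w, rfl⟩ := mk_surjective b
  induction w using FreeAlgebra.induction with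
  | grade0 r => simp only [AlgHom.commutes]; exact Algebra.commutes r _
  | grade1 g =>
    have h := congrArg (· * s1) (mk_base (Base.formula g))
    simp only [map_add, map_mul] at h
    change (s0 * mk (ι K g) * t0 + s1 * mk (psiFree (ι K g)) * t1) * s1 = _ at h
    rw [psi_mk, ← h, add_mul, mul_assoc _ t0 s1, mul_assoc _ t1 s1, t0_s1, t1_s1]
    simp
  | mul a b ha hb =>
    rw [map_mul, map_mul, mul_assoc, hb, ← mul_assoc, ha, mul_assoc]
  | add a b ha hb => simp only [map_add, add_mul, mul_add, ha, hb]

/-- The swindle identity. -/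
theorem psi_eq (b : B) : psi b = s0 * b * t0 + s1 * psi b * t1 := by
  rw [← psi_s0, ← psi_s1, mul_assoc, mul_assoc, ← mul_add, sum_st, mul_one]

theorem psi_p (b : B) : psi b * p = p * psi (psi b) := by
  rw [psi_psi, ← mul_assoc, ← mul_assoc, pq_comm, mul_assoc (psi b), mul_assoc p q p, q_p,
    mul_one]

/-! ### The model -/

abbrev Str := ℕ → T

def cons (a : T) (x : Str) : Str := fun n => match n with
  | 0 => a
  | n + 1 => x n

def tail (x : Str) : Str := fun n => x (n + 1)

@[simp] theorem cons_zero (a : T) (x : Str) : cons a x 0 = a := rfl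
@[simp] theorem tail_cons (a : T) (x : Str) : tail (cons a x) = x := rfl

theorem cons_head_tail (x : Str) : cons (x 0) (tail x) = x := by
  funext n; cases n <;> rfl

theorem cons_injective (a : T) : Function.Injective (cons a) := by
  intro x y h; simpa using congrArg tail h

abbrev V := Str →₀ K

def opFun : Op → Str → Option Str
  | .s0, x => some (cons (.atom 0) x)
  | .s1, x => match x 0 with
    | .atom n => some (cons (.atom (n + 1)) (tail x))
    | .node _ _ => some x
  | .t0, x => match x 0 with
    | .atom 0 => some (tail x)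
    | _ => none
  | .t1, x => match x 0 with
    | .atom 0 => none
    | .atom (n + 1) => some (cons (.atom n) (tail x))
    | .node _ _ => some x
  | .p, x => some (cons (.node (x 0) (x 1)) (tail (tail x)))
  | .q, x => match x 0 with
    | .atom _ => none
    | .node l r => some (cons l (cons r (tail x)))

noncomputable def optVec : Option Str → V
  | none => 0
  | some x => Finsupp.single x 1

noncomputable def opLin (o : Op) : Module.End K V :=
  Finsupp.linearCombination K fun x => optVec (opFun o x)

/-- Apply an operator to the tail. -/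
noncomputable def shiftLin (A : Module.End K V) : Module.End K V :=
  Finsupp.linearCombination K fun x =>
    Finsupp.mapDomain (cons (x 0)) (A (Finsupp.single (tail x) 1))

theorem opLin_single (o : Op) (x : Str) :
    opLin o (Finsupp.single x 1) = optVec (opFun o x) := by simp [opLin]

theorem shiftLin_single (A : Module.End K V) (x : Str) :
    shiftLin A (Finsupp.single x 1) =
      Finsupp.mapDomain (cons (x 0)) (A (Finsupp.single (tail x) 1)) := by simp [shiftLin]

theorem shiftLin_cons (A : Module.End K V) (a : T) (v : V) :
    shiftLin A (Finsupp.mapDomain (cons a) v) = Finsupp.mapDomain (cons a) (A v) := by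
  induction v using Finsupp.induction_linear with
  | zero => simp
  | add f g hf hg => simp [Finsupp.mapDomain_add, hf, hg]
  | single x c =>
    rw [Finsupp.mapDomain_single]
    simp [shiftLin, ← Finsupp.mapDomain_smul, ← map_smul, Finsupp.smul_single]

noncomputable def shiftHom : Module.End K V →ₐ[K] Module.End K V where
  toFun := shiftLin
  map_one' := by
    apply Finsupp.lhom_ext; intro x c
    simp [shiftLin, cons_head_tail]
  map_mul' A A' := by
    apply Finsupp.lhom_ext; intro x c
    have : Finsupp.single x c = c • Finsupp.single x (1 : K) := by simp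
    rw [this, map_smul, map_smul, shiftLin_single]
    rw [Module.End.mul_apply, Module.End.mul_apply, shiftLin_single, shiftLin_cons]
  map_zero' := by
    apply Finsupp.lhom_ext; intro x c
    simp [shiftLin]
  map_add' A A' := by
    apply Finsupp.lhom_ext; intro x c
    simp [shiftLin, Finsupp.mapDomain_add, smul_add]
  commutes' r := by
    apply Finsupp.lhom_ext; intro x c
    simp [shiftLin, cons_head_tail, mul_comm, Algebra.algebraMap_eq_smul_one]

noncomputable def evFree : Free →ₐ[K] Module.End K V :=
  FreeAlgebra.lift K fun g => match g with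
    | (o, false) => opLin o
    | (o, true) => shiftHom (opLin o)

theorem End_ext {A A' : Module.End K V}
    (h : ∀ x, A (Finsupp.single x 1) = A' (Finsupp.single x 1)) : A = A' := by
  apply Finsupp.lhom_ext; intro x c
  have : Finsupp.single x c = c • Finsupp.single x (1 : K) := by simp
  rw [this, map_smul, map_smul, h]

end Vale.Agent.P193.FlabbyLeavitt
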