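import Vale.Agent.P193.FlabbyLeavitt.Main
import Vale.Agent.P193.Assembly

/-! P193, module B: the interface used by the assembly. -/

namespace Vale.Agent.P193.FlabbyLeavitt

/-- `B` is finitely presented. -/
theorem isFPAlg : Assembly.IsFPAlg B := Assembly.IsFPAlg.of_ringQuot Rel finite_rel

/-- `B` carries the flasque structure. -/
noncomputable def flasque : Flasque B where
  s₀ := s0
  s₁ := s1
  t₀ := t0
  t₁ := t1
  t₀s₀ := t0_s0
  t₁s₁ := t1_s1
  t₀s₁ := t0_s1
  t₁s₀ := t1_s0
  sum_eq := sum_st
  phi := psi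
  phi_eq := psi_eq

/-- An algebra as required by the assembly exists. -/
theorem exists_flasque_covered :
    ∃ (R : Type) (_ : Ring R) (_ : Algebra (ZMod 2) R),
      Nontrivial R ∧ Assembly.IsFPAlg R ∧ Nonempty (CoveredSystem R) ∧ Nonempty (Flasque R) :=
  ⟨B, inferInstance, inferInstance, inferInstance, isFPAlg, ⟨covered⟩, ⟨flasque⟩⟩

/-- The conjecture from the remaining modules, with `B` plugged in. -/
theorem booneHigman_of_remaining (hG : GroupHalf) (hP : PureHalf)
    (hsetup : ∀ (G : Type) [Group G], HasDecidableWordProblem G →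
      ∃ (D : Setup) (i : G →* D.K), Function.Injective i)
    (hA : ∀ D : Setup, Nontrivial D.Alg ∧ Nonempty (PureSystem D.Alg) ∧
      ∃ ι : D.K →* (D.Alg)ˣ, Function.Injective ι) : BooneHigmanConjecture :=
  booneHigman_of_modules hG hP hsetup hA isFPAlg covered flasque

end Vale.Agent.P193.FlabbyLeavitt
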