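import Vale.Agent.P193.FlabbyLeavitt.Defs

/-! P193, module B: the model satisfies the relations. -/

namespace Vale.Agent.P193.FlabbyLeavitt

open FreeAlgebra

@[simp] theorem tail_apply (x : Str) (n : ℕ) : tail x n = x (n + 1) := rfl

theorem shiftHom_single (A : Module.End K V) (x : Str) :
    shiftHom A (Finsupp.single x 1) =
      Finsupp.mapDomain (cons (x 0)) (A (Finsupp.single (tail x) 1)) := shiftLin_single A x

theorem mapDomain_optVec (f : Str → Str) (o : Option Str) :
    Finsupp.mapDomain f (optVec o) = optVec (o.map f) := by
  cases o <;> simp [optVec, Finsupp.mapDomain_single]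

/-- basis computation of `p` -/
theorem opLin_p_single (x : Str) :
    opLin .p (Finsupp.single x 1) =
      Finsupp.single (cons (.node (x 0) (x 1)) (tail (tail x))) 1 := by
  simp [opLin_single, opFun, optVec]

theorem q_shift_p (A : Module.End K V) :
    opLin .q * shiftHom A * opLin .p = shiftHom (shiftHom A) := by
  apply End_ext; intro x
  simp only [Module.End.mul_apply, opLin_p_single, shiftHom_single, cons_zero, tail_cons, tail_apply,
    ← Finsupp.mapDomain_comp]
  induction A (Finsupp.single (tail (tail x)) 1) using Finsupp.induction_linear with
  | zero => simp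
  | add f g hf hg => simp only [Finsupp.mapDomain_add, map_add, hf, hg]
  | single y c =>
    have : Finsupp.single y c = c • Finsupp.single y (1 : K) := by simp
    rw [this]
    simp only [Finsupp.mapDomain_smul, map_smul, Finsupp.mapDomain_single, opLin_single]
    simp [opFun, optVec]

theorem pq_shift (A : Module.End K V) :
    opLin .p * opLin .q * shiftHom A = shiftHom A * (opLin .p * opLin .q) := by
  apply End_ext; intro x
  simp only [Module.End.mul_apply, shiftHom_single]
  have h : ∀ y : Str, opLin .p (opLin .q (Finsupp.single y 1)) =
      match y 0 with
      | .atom _ => 0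
      | .node _ _ => Finsupp.single y 1 := by
    intro y
    rw [opLin_single]
    cases hy : y 0 with
    | atom n => simp [opFun, hy, optVec]
    | node l r =>
      simp only [opFun, hy, optVec, opLin_p_single]
      congr 1
      funext n
      rcases n with _ | n <;> simp [cons, tail, hy]
  rw [h x]
  cases hx : x 0 with
  | atom n =>
    simp only [map_zero]
    induction A (Finsupp.single (tail x) 1) using Finsupp.induction_linear with
    | zero => simp
    | add f g hf hg => simp only [Finsupp.mapDomain_add, map_add, hf, hg, add_zero]
    | single y c =>
      simp [opLin, opFun, optVec, Finsupp.mapDomain_single]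
  | node l r =>
    rw [shiftHom_single, hx]
    induction A (Finsupp.single (tail x) 1) using Finsupp.induction_linear with
    | zero => simp
    | add f g hf hg => simp only [Finsupp.mapDomain_add, map_add, hf, hg]
    | single y c =>
      simp [opLin, opFun, optVec, Finsupp.mapDomain_single, cons]


theorem shift_formula (A : Module.End K V) :
    opLin .s0 * A * opLin .t0 + opLin .s1 * shiftHom A * opLin .t1 = shiftHom A := by
  apply End_ext; intro x
  simp only [LinearMap.add_apply, Module.End.mul_apply]
  rcases hx : x 0 with ⟨n⟩ | ⟨l, r⟩
  · cases n with
    | zero =>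
      simp only [opLin_single, opFun, hx, optVec, map_zero, add_zero, shiftHom_single]
      induction A (Finsupp.single (tail x) 1) using Finsupp.induction_linear with
      | zero => simp
      | add f g hf hg => simp only [Finsupp.mapDomain_add, map_add, hf, hg]
      | single y c =>
        simp [opLin, opFun, optVec, Finsupp.mapDomain_single]
    | succ n =>
      simp only [opLin_single, opFun, hx, optVec, map_zero, zero_add, shiftHom_single, cons_zero,
        tail_cons]
      induction A (Finsupp.single (tail x) 1) using Finsupp.induction_linear with
      | zero => simp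
      | add f g hf hg => simp only [Finsupp.mapDomain_add, map_add, hf, hg]
      | single y c =>
        simp [opLin, opFun, optVec, Finsupp.mapDomain_single]
  · simp only [opLin_single, opFun, hx, optVec, map_zero, zero_add, shiftHom_single]
    induction A (Finsupp.single (tail x) 1) using Finsupp.induction_linear with
    | zero => simp
    | add f g hf hg => simp only [Finsupp.mapDomain_add, map_add, hf, hg]
    | single y c =>
      simp [opLin, opFun, optVec, Finsupp.mapDomain_single]

theorem evFree_psiFree (w : Free) : evFree (psiFree w) = shiftHom (evFree w) := by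
  have : evFree.comp psiFree = shiftHom.comp evFree := by
    apply FreeAlgebra.hom_ext
    funext g
    obtain ⟨o, b⟩ := g
    cases b
    · simp [psiFree, evFree, g1]
    · simp [psiFree, evFree, g0, g1, q_shift_p]
  exact DFunLike.congr_fun this w

theorem ev_base {x y : Free} (h : Base x y) : evFree x = evFree y := by
  have hg : ∀ o, evFree (g0 o) = opLin o := fun o => by simp [evFree, g0]
  cases h
  case comm g => simp only [map_mul, evFree_psiFree, hg]; exact pq_shift _
  case formula g => simp only [map_mul, map_add, evFree_psiFree, hg]; exact shift_formula _
  case assoc g =>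
    simp only [map_mul, evFree_psiFree, hg]; exact (q_shift_p _).symm
  case sum =>
    apply End_ext; intro x
    simp only [map_mul, map_add, map_one, hg, LinearMap.add_apply, Module.End.mul_apply,
      Module.End.one_apply, opLin_single]
    rcases hx : x 0 with ⟨n⟩ | ⟨l, r⟩
    · cases n <;> simp [opFun, hx, optVec, opLin_single] <;>
        (rw [← hx, cons_head_tail])
    · simp [opFun, hx, optVec, opLin_single]
  all_goals
    apply End_ext; intro x
    simp only [map_mul, map_one, map_zero, hg, Module.End.mul_apply, Module.End.one_apply,
      LinearMap.zero_apply, opLin_single]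
  case qp =>
    simp [opFun, optVec, opLin_single]
    congr 1
    funext n; rcases n with _ | _ | n <;> rfl
  case qs1 =>
    rcases hx : x 0 with ⟨n⟩ | ⟨l, r⟩ <;> simp [opFun, hx, optVec, opLin_single]
  case t1s1 =>
    rcases hx : x 0 with ⟨n⟩ | ⟨l, r⟩ <;> simp [opFun, hx, optVec, opLin_single]
    rw [← hx, cons_head_tail]
  case t0s1 =>
    rcases hx : x 0 with ⟨n⟩ | ⟨l, r⟩ <;> simp [opFun, hx, optVec, opLin_single]
  all_goals simp [opFun, optVec, opLin_single]

/-- The representation of `B` on streams of terms. -/
noncomputable def ev : B →ₐ[K] Module.End K V :=
  RingQuot.liftAlgHom K ⟨evFree, by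
    intro x y h
    cases h with
    | base h => exact ev_base h
    | image h => rw [evFree_psiFree, evFree_psiFree, ev_base h]⟩

@[simp] theorem ev_mk (w : Free) : ev (mk w) = evFree w := by
  simp [ev, mk, RingQuot.liftAlgHom_mkAlgHom_apply]

theorem ev_psi (b : B) : ev (psi b) = shiftHom (ev b) := by
  obtain ⟨w, rfl⟩ := mk_surjective b
  simp [evFree_psiFree]

end Vale.Agent.P193.FlabbyLeavitt
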