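import Vale.Agent.P193.FlabbyLeavitt.Model

/-! P193, module B: symbolic patterns and their action. -/

namespace Vale.Agent.P193.FlabbyLeavitt

/-- Patterns: terms with variables; `ge c` is a variable atom of index at least `c`. -/
inductive PT where
  | atom (n : ℕ)
  | var
  | ge (c : ℕ)
  | node (l r : PT)
deriving DecidableEq

def kindsT : PT → List Bool
  | .atom _ => []
  | .var => [false]
  | .ge _ => [true]
  | .node l r => kindsT l ++ kindsT r

def kinds (P : List PT) : List Bool := P.flatMap kindsT

abbrev nv (t : PT) : ℕ := (kindsT t).length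

noncomputable def psiN : ℕ → (B →ₐ[K] B)
  | 0 => AlgHom.id K B
  | n + 1 => psi.comp (psiN n)

@[simp] theorem psiN_zero (x : B) : psiN 0 x = x := rfl

theorem psiN_succ (n : ℕ) (x : B) : psiN (n + 1) x = psi (psiN n x) := rfl

theorem psiN_add (m n : ℕ) (x : B) : psiN (m + n) x = psiN m (psiN n x) := by
  induction m with
  | zero => simp
  | succ m ih => rw [Nat.add_right_comm, psiN_succ, psiN_succ, ih]

theorem psiN_psi (n : ℕ) (x : B) : psiN n (psi x) = psiN (n + 1) x := by
  rw [psiN_add n 1]; rfl

noncomputable def E : PT → B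
  | .atom c => s1 ^ c * s0
  | .var => 1
  | .ge c => s1 ^ c * (1 - p * q)
  | .node l r => p * E l * psiN (nv l) (E r)

noncomputable def Phi : List PT → B
  | [] => 1
  | t :: P => E t * psiN (nv t) (Phi P)

theorem psi_E (t : PT) (x : B) : psi x * E t = E t * psiN (nv t) x := by
  induction t generalizing x with
  | atom c =>
    have h0 : Commute (psi x) s1 := psi_s1 x
    have h : Commute (psi x) (s1 ^ c) := h0.pow_right c
    simp only [E, nv, kindsT, List.length_nil, psiN_zero]
    rw [← mul_assoc, h.eq, mul_assoc, psi_s0, mul_assoc]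
  | var => simp [E, nv, kindsT, psiN_succ]
  | ge c =>
    have h0 : Commute (psi x) s1 := psi_s1 x
    have h : Commute (psi x) (s1 ^ c) := h0.pow_right c
    have h' : Commute (psi x) (1 - p * q) :=
      (Commute.one_right _).sub_right (pq_comm x).symm
    simp only [E, nv, kindsT, List.length_singleton, psiN_succ, psiN_zero]
    exact (h.mul_right h').eq
  | node l r ihl ihr =>
    simp only [E, nv, kindsT, List.length_append]
    calc psi x * (p * E l * psiN (nv l) (E r))
        = (psi x * p) * E l * psiN (nv l) (E r) := by simp only [mul_assoc]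
      _ = p * (psi (psi x) * E l) * psiN (nv l) (E r) := by rw [psi_p]; simp only [mul_assoc]
      _ = p * E l * (psiN (nv l) (psi x) * psiN (nv l) (E r)) := by
          rw [ihl]; simp only [mul_assoc]
      _ = p * E l * (psiN (nv l) (E r) * psiN (nv l) (psiN (nv r) x)) := by
          rw [← map_mul, ihr, map_mul]
      _ = _ := by rw [← psiN_add]; simp only [mul_assoc, nv]

/-! ### Budget -/

def Dep : ℕ → PT → Prop
  | 0, _ => True
  | _ + 1, .atom _ => True
  | _ + 1, .var => False
  | n + 1, .ge c => n + 1 ≤ c
  | n + 1, .node l r => Dep n l ∧ Dep n r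

def Good : ℕ → List PT → Prop
  | 0, _ => True
  | _ + 1, [] => False
  | n + 1, t :: P => Dep (n + 1) t ∧ Good n P

theorem Dep.mono {n m : ℕ} (h : m ≤ n) {t : PT} (ht : Dep n t) : Dep m t := by
  induction t generalizing n m with
  | atom c => cases m <;> simp [Dep]
  | var => cases m <;> cases n <;> simp_all [Dep]
  | ge c => cases m <;> cases n <;> simp_all [Dep]; omega
  | node l r ihl ihr =>
    cases m with
    | zero => simp [Dep]
    | succ m =>
      cases n with
      | zero => omega
      | succ n => exact ⟨ihl (by omega) ht.1, ihr (by omega) ht.2⟩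

theorem Good.mono {n m : ℕ} (h : m ≤ n) {P : List PT} (hP : Good n P) : Good m P := by
  induction P generalizing n m with
  | nil => cases m <;> cases n <;> simp_all [Good]
  | cons t P ih =>
    cases m with
    | zero => simp [Good]
    | succ m =>
      cases n with
      | zero => omega
      | succ n => exact ⟨hP.1.mono h, ih (by omega) hP.2⟩

noncomputable def op (o : Op) : B := mk (g0 o)

theorem t1_s1_pow (c : ℕ) : t1 * s1 ^ (c + 1) = s1 ^ c := by
  rw [pow_succ', ← mul_assoc, t1_s1, one_mul]

theorem t0_s1_pow (c : ℕ) : t0 * s1 ^ (c + 1) = 0 := by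
  rw [pow_succ', ← mul_assoc, t0_s1, zero_mul]

theorem q_s1_pow (c : ℕ) : q * s1 ^ c = q := by
  induction c with
  | zero => simp
  | succ c ih => rw [pow_succ, ← mul_assoc, ih, q_s1]

theorem q_f : q * (1 - p * q) = 0 := by rw [mul_sub, mul_one, ← mul_assoc, q_p, one_mul, sub_self]

/-- One step of a level-0 generator on a pattern list. -/
theorem op_step (o : Op) (n : ℕ) (P : List PT) (hP : Good (n + 3) P) :
    op o * Phi P = 0 ∨
      ∃ Q, Good (n + 1) Q ∧ kinds Q = kinds P ∧ op o * Phi P = Phi Q := by
  match P, hP with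
  | t :: R, hP =>
    obtain ⟨ht, hR⟩ := hP
    cases o with
    | s0 =>
      refine Or.inr ⟨.atom 0 :: t :: R, ⟨trivial, Good.mono (n := n + 3) (P := _) (by omega) (show Good (n + 3) (_ :: _) from ⟨ht, hR⟩)⟩, ?_, ?_⟩
      · simp [kinds, kindsT]
      · simp [Phi, E, op, s0, nv, kindsT]
    | s1 =>
      cases t with
      | atom c =>
        refine Or.inr ⟨.atom (c + 1) :: R, ⟨trivial, hR.mono (by omega)⟩, by simp [kinds, kindsT], ?_⟩
        simp [Phi, E, op, nv, kindsT, pow_succ', mul_assoc, s1]
      | var => exact absurd ht (by simp [Dep])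
      | ge c =>
        refine Or.inr ⟨.ge (c + 1) :: R, ⟨?_, hR.mono (by omega)⟩, by simp [kinds, kindsT], ?_⟩
        · simp only [Dep] at ht ⊢; omega
        · simp [Phi, E, op, nv, kindsT, pow_succ', mul_assoc, s1]
      | node l r =>
        refine Or.inr ⟨.node l r :: R, Good.mono (n := n + 3) (P := _) (by omega) (show Good (n + 3) (_ :: _) from ⟨ht, hR⟩), rfl, ?_⟩
        change s1 * (p * E l * psiN (nv l) (E r) * _) = p * E l * psiN (nv l) (E r) * _
        simp only [← mul_assoc, s1_p]
    | t0 =>
      cases t with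
      | atom c =>
        cases c with
        | zero =>
          refine Or.inr ⟨R, hR.mono (by omega), by simp [kinds, kindsT], ?_⟩
          change t0 * (s1 ^ 0 * s0 * psiN 0 (Phi R)) = Phi R
          rw [pow_zero, one_mul, psiN_zero, ← mul_assoc, t0_s0, one_mul]
        | succ c =>
          left
          change t0 * (s1 ^ (c + 1) * s0 * _) = 0
          simp only [← mul_assoc, t0_s1_pow, zero_mul]
      | var => exact absurd ht (by simp [Dep])
      | ge c =>
        left
        simp only [Dep] at ht
        obtain ⟨c, rfl⟩ : ∃ c', c = c' + 1 := ⟨c - 1, by omega⟩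
        change t0 * (s1 ^ (c + 1) * _ * _) = 0
        simp only [← mul_assoc, t0_s1_pow, zero_mul]
      | node l r =>
        left
        change t0 * (p * _ * _ * _) = 0
        simp only [← mul_assoc, t0_p, zero_mul]
    | t1 =>
      cases t with
      | atom c =>
        cases c with
        | zero =>
          left
          change t1 * (s1 ^ 0 * s0 * _) = 0
          simp only [pow_zero, one_mul, ← mul_assoc, t1_s0, zero_mul]
        | succ c =>
          refine Or.inr ⟨.atom c :: R, ⟨trivial, hR.mono (by omega)⟩, by simp [kinds, kindsT], ?_⟩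
          change t1 * (s1 ^ (c + 1) * s0 * _) = s1 ^ c * s0 * _
          simp only [← mul_assoc, t1_s1_pow]
          rfl
      | var => exact absurd ht (by simp [Dep])
      | ge c =>
        simp only [Dep] at ht
        obtain ⟨c, rfl⟩ : ∃ c', c = c' + 1 := ⟨c - 1, by omega⟩
        refine Or.inr ⟨.ge c :: R, ⟨?_, hR.mono (by omega)⟩, by simp [kinds, kindsT], ?_⟩
        · simp only [Dep]; omega
        · change t1 * (s1 ^ (c + 1) * _ * _) = s1 ^ c * _ * _
          simp only [← mul_assoc, t1_s1_pow]
          rfl
      | node l r =>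
        refine Or.inr ⟨.node l r :: R, Good.mono (n := n + 3) (P := _) (by omega) (show Good (n + 3) (_ :: _) from ⟨ht, hR⟩), rfl, ?_⟩
        change t1 * (p * E l * psiN (nv l) (E r) * _) = p * E l * psiN (nv l) (E r) * _
        simp only [← mul_assoc, t1_p]
    | p =>
      match R, hR with
      | u :: R', hR =>
        refine Or.inr ⟨.node t u :: R', ⟨⟨ht.mono (by omega), hR.1.mono (by omega)⟩,
          hR.2.mono (by omega)⟩, by simp [kinds, kindsT], ?_⟩
        change p * (E t * psiN (nv t) (E u * psiN (nv u) (Phi R'))) =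
          p * E t * psiN (nv t) (E u) * psiN (nv (.node t u)) (Phi R')
        rw [map_mul, ← psiN_add]
        simp only [mul_assoc, nv, kindsT, List.length_append]
    | q =>
      cases t with
      | atom c =>
        left
        change q * (s1 ^ c * s0 * _) = 0
        simp only [← mul_assoc, q_s1_pow, q_s0, zero_mul]
      | var => exact absurd ht (by simp [Dep])
      | ge c =>
        left
        change q * (s1 ^ c * (1 - p * q) * _) = 0
        simp only [← mul_assoc, q_s1_pow, q_f, zero_mul]
      | node l r =>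
        refine Or.inr ⟨l :: r :: R,
          ⟨ht.1.mono (by omega), Good.mono (m := n) (n := n + 1) (by omega)
            ⟨ht.2.mono (by omega), hR.mono (by omega)⟩⟩,
          by simp [kinds, kindsT], ?_⟩
        change q * (p * E l * psiN (nv l) (E r) * psiN (nv (.node l r)) (Phi R)) =
          E l * psiN (nv l) (E r * psiN (nv r) (Phi R))
        simp only [← mul_assoc, q_p, one_mul]
        rw [map_mul, ← psiN_add]
        simp only [mul_assoc, nv, kindsT, List.length_append]

/-! ### Locality -/

def patSet (n : ℕ) (k : List Bool) : Set B := {b | ∃ Q, Good n Q ∧ kinds Q = k ∧ Phi Q = b}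

/-- `a` uses at most `L` levels of a pattern. -/
def Loc (L : ℕ) (a : B) : Prop :=
  ∀ n P, Good (n + L) P → a * Phi P ∈ Submodule.span K (patSet n (kinds P))

theorem patSet_mono {m n : ℕ} (h : m ≤ n) (k : List Bool) : patSet n k ⊆ patSet m k := by
  rintro b ⟨Q, hQ, hk, rfl⟩; exact ⟨Q, hQ.mono h, hk, rfl⟩

theorem Loc.mono {L L' : ℕ} (h : L ≤ L') {a : B} (ha : Loc L a) : Loc L' a :=
  fun n P hP => ha n P (hP.mono (by omega))

theorem loc_gen (g : Gen) : Loc 4 (mk (FreeAlgebra.ι K g)) := by
  obtain ⟨o, b⟩ := g
  intro n P hP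
  cases b with
  | false =>
    rcases op_step o n P (hP.mono (by omega)) with h | ⟨Q, hQ, hk, h⟩
    · change op o * Phi P ∈ _
      rw [h]; exact Submodule.zero_mem _
    · exact Submodule.subset_span ⟨Q, hQ.mono (by omega), hk, h.symm⟩
  | true =>
    have hg : mk (FreeAlgebra.ι K (o, true)) = psi (op o) := by
      simp [op, psiFree, g0, g1]
    match P, hP with
    | t :: R, hP =>
      obtain ⟨ht, hR⟩ := hP
      rw [hg, Phi, ← mul_assoc, psi_E, mul_assoc, ← map_mul]
      rcases op_step o n R hR with h | ⟨Q, hQ, hk, h⟩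
      · rw [h]; simp
      · refine Submodule.subset_span ⟨t :: Q, ?_, ?_, ?_⟩
        · exact Good.mono (n := n + 1) (by omega) ⟨ht.mono (by omega), hQ.mono (by omega)⟩
        · simp [kinds] at hk ⊢; rw [hk]
        · rw [h]; rfl

theorem exists_loc (a : B) : ∃ L, Loc L a := by
  obtain ⟨w, rfl⟩ := mk_surjective a
  induction w using FreeAlgebra.induction with
  | grade0 r =>
    refine ⟨0, fun n P hP => ?_⟩
    rw [AlgHom.commutes, ← Algebra.smul_def]
    exact Submodule.smul_mem _ _ (Submodule.subset_span ⟨P, hP, rfl, rfl⟩)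
  | grade1 g => exact ⟨4, loc_gen g⟩
  | mul a b ha hb =>
    obtain ⟨La, ha⟩ := ha
    obtain ⟨Lb, hb⟩ := hb
    refine ⟨La + Lb, fun n P hP => ?_⟩
    rw [map_mul, mul_assoc]
    have h := hb (n + La) P (by rw [Nat.add_assoc]; exact hP)
    generalize mk b * Phi P = z at h
    induction h using Submodule.span_induction with
    | mem z hz =>
      obtain ⟨Q, hQ, hk, rfl⟩ := hz
      rw [← hk]; exact ha n Q hQ
    | zero => simp
    | add x y _ _ hx hy => rw [mul_add]; exact add_mem hx hy
    | smul c x _ hx => rw [mul_smul_comm]; exact Submodule.smul_mem _ _ hx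
  | add a b ha hb =>
    obtain ⟨La, ha⟩ := ha
    obtain ⟨Lb, hb⟩ := hb
    refine ⟨max La Lb, fun n P hP => ?_⟩
    rw [map_add, add_mul]
    exact add_mem (ha.mono (le_max_left _ _) n P hP) (hb.mono (le_max_right _ _) n P hP)

/-! ### Deep patterns cover the unit -/

def headSet (n : ℕ) : Set B := {b | ∃ t x, Dep n t ∧ E t * x = b}
def covSet (n : ℕ) : Set B := {b | ∃ P x, Good n P ∧ Phi P * x = b}

theorem one_eq_atoms (n : ℕ) :
    (1 : B) = (∑ i ∈ Finset.range n, s1 ^ i * s0 * (t0 * t1 ^ i)) + s1 ^ n * t1 ^ n := by
  induction n with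
  | zero => simp
  | succ n ih =>
    rw [Finset.sum_range_succ, add_assoc]
    conv_lhs => rw [ih]
    congr 1
    have h : s1 ^ n * t1 ^ n = s1 ^ n * (s0 * t0 + s1 * t1) * t1 ^ n := by rw [sum_st, mul_one]
    rw [h, mul_add, add_mul, pow_succ, pow_succ' t1]
    simp only [mul_assoc]

theorem s1_pow_p (n : ℕ) : s1 ^ n * p = p := by
  induction n with
  | zero => simp
  | succ n ih => rw [pow_succ', mul_assoc, ih, s1_p]

theorem one_mem_head (n : ℕ) : (1 : B) ∈ Submodule.span K (headSet n) := by
  induction n with
  | zero => exact Submodule.subset_span ⟨.var, 1, trivial, by simp [E]⟩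
  | succ n ih =>
    rw [one_eq_atoms (n + 1)]
    refine add_mem (Submodule.sum_mem _ fun i _ => Submodule.subset_span
      ⟨.atom i, _, trivial, rfl⟩) ?_
    have h : s1 ^ (n + 1) * t1 ^ (n + 1) =
        s1 ^ (n + 1) * (1 - p * q) * t1 ^ (n + 1) + p * (q * t1 ^ (n + 1)) := by
      rw [mul_sub, mul_one, ← mul_assoc _ p q, s1_pow_p, sub_mul, mul_assoc p q]; abel
    rw [h]
    refine add_mem (Submodule.subset_span ⟨.ge (n + 1), _, le_refl _, rfl⟩) ?_
    generalize q * t1 ^ (n + 1) = z
    -- refine inside the two children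
    have key : ∀ a ∈ Submodule.span K (headSet n), ∀ b ∈ Submodule.span K (headSet n),
        ∀ l : PT, Dep n l → ∀ y : B,
          p * E l * psiN (nv l) b * y ∈ Submodule.span K (headSet (n + 1)) := by
      intro a _ b hb l hl y
      induction hb using Submodule.span_induction with
      | mem b hb =>
        obtain ⟨r, x, hr, rfl⟩ := hb
        refine Submodule.subset_span ⟨.node l r, psiN (nv l) x * y, ⟨hl, hr⟩, ?_⟩
        simp [E, mul_assoc]
      | zero => simp
      | add x x' _ _ hx hx' => simp only [map_add, mul_add, add_mul]; exact add_mem hx hx'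
      | smul c x _ hx =>
        rw [map_smul, mul_smul_comm, smul_mul_assoc]; exact Submodule.smul_mem _ _ hx
    have : ∀ b ∈ Submodule.span K (headSet n),
        p * b * z ∈ Submodule.span K (headSet (n + 1)) := by
      intro b hb
      induction hb using Submodule.span_induction with
      | mem b hb =>
        obtain ⟨l, x, hl, rfl⟩ := hb
        have := key 1 ih 1 ih l hl (x * z)
        simpa [mul_assoc] using this
      | zero => simp
      | add x x' _ _ hx hx' => simp only [mul_add, add_mul]; exact add_mem hx hx'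
      | smul c x _ hx =>
        rw [mul_smul_comm, smul_mul_assoc]; exact Submodule.smul_mem _ _ hx
    simpa using this 1 ih

theorem one_mem_cov (n : ℕ) : (1 : B) ∈ Submodule.span K (covSet n) := by
  induction n with
  | zero => exact Submodule.subset_span ⟨[], 1, trivial, by simp [Phi]⟩
  | succ n ih =>
    have key : ∀ b ∈ Submodule.span K (covSet n), ∀ t, Dep (n + 1) t → ∀ y : B,
        E t * psiN (nv t) b * y ∈ Submodule.span K (covSet (n + 1)) := by
      intro b hb t ht y
      induction hb using Submodule.span_induction with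
      | mem b hb =>
        obtain ⟨P, x, hP, rfl⟩ := hb
        exact Submodule.subset_span ⟨t :: P, psiN (nv t) x * y, ⟨ht, hP⟩, by simp [Phi, mul_assoc]⟩
      | zero => simp
      | add x x' _ _ hx hx' => simp only [map_add, mul_add, add_mul]; exact add_mem hx hx'
      | smul c x _ hx =>
        rw [map_smul, mul_smul_comm, smul_mul_assoc]; exact Submodule.smul_mem _ _ hx
    refine Submodule.span_le.2 ?_ (one_mem_head (n + 1))
    rintro b ⟨t, x, ht, rfl⟩
    simpa using key 1 ih t ht x

end Vale.Agent.P193.FlabbyLeavitt
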